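import Vale.Agent.Lib.P308.Bridge
import Vale.Agent.Lib.P308.Poly

/-!
# P308: near-perfect versus perfect matchings in regular spectral expanders of every degree

Let `G` be a `d`-regular graph on `n` vertices (`d ≥ 1`) whose adjacency matrix `A` satisfies
`‖A f‖ ≤ lam * ‖f‖` for every real vector `f` with zero coordinate sum, where `64 * lam ≤ d`.
Then the number of matchings leaving exactly two vertices uncovered is at most `n ^ 20` times
the number of perfect matchings.  The bound is a fixed polynomial, whatever the degree.

Proof idea: every level of a pair of alternating trees is sparsified by a random labeling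
(each even vertex keeps one block of about `d / q` of its neighbours, `q` about `d / 32`).
For a fixed near-perfect matching the two trees double at every level with frequency at least
`1 / 8` (first moment and a reverse Markov inequality, using the spectral gap), and two trees
of about `n / 2048` even vertices are joined through one more matching edge.  Hence at least
one labeling in `8 ^ (2 t)` admits an augmenting sequence opened by the labels, where `t` is
about `log_2 n`.  On the other hand a pair of a near-perfect matching and an augmenting
sequence is encoded by a perfect matching, a vertex and `2 t + 1` indices below `d`, and only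
one labeling in `q ^ (2 t)` opens a given sequence.  Comparing the two counts gives the bound
`n * d * (8 * 64) ^ (2 t)`, which is at most `n ^ 20`.
-/

namespace Vale.Agent.Results.P308.AllDegreesExpanderRatio

open Vale.Agent.Lib.P308

theorem result {V : Type*} [Fintype V] (G : SimpleGraph V) [DecidableRel G.Adj]
    (d : ℕ) (lam : ℝ) (hd : 1 ≤ d) (hreg : G.IsRegularOfDegree d)
    (hlam : 0 ≤ lam)
    (hspec : ∀ f : V → ℝ, ∑ x, f x = 0 →
      ∑ x, ((G.adjMatrix ℝ).mulVec f x) ^ 2 ≤ lam ^ 2 * ∑ x, f x ^ 2)
    (hgap : 64 * lam ≤ d) :
    {M : G.Subgraph | M.IsMatching ∧ (M.vertsᶜ).ncard = 2}.ncard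
      ≤ Fintype.card V ^ 20 * {M : G.Subgraph | M.IsPerfectMatching}.ncard := by
  have h1 := ncard_subgraph_nearPerfect_le (G := G)
  have h2 := ncard_perfect_le_subgraph (G := G)
  have hspec' : ∀ f : V → ℝ, ∑ x, f x = 0 →
      ∑ x, (∑ y ∈ G.neighborFinset x, f y) ^ 2 ≤ lam ^ 2 * ∑ x, f x ^ 2 := by
    intro f hf
    have := hspec f hf
    simp only [SimpleGraph.adjMatrix_mulVec_apply] at this
    exact this
  have h3 := nearPerfect_le_poly G hd hreg hlam hspec' hgap
  calc {M : G.Subgraph | M.IsMatching ∧ (M.vertsᶜ).ncard = 2}.ncard
      ≤ (nearPerfect G).ncard := h1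
    _ ≤ Fintype.card V ^ 20 * (perfect G).ncard := h3
    _ ≤ Fintype.card V ^ 20 * {M : G.Subgraph | M.IsPerfectMatching}.ncard :=
        Nat.mul_le_mul_left _ h2

end Vale.Agent.Results.P308.AllDegreesExpanderRatio
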