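import Vale.Agent.Lib.P308.Bridge
import Vale.Agent.Lib.P308.Count

/-!
# P308: near-perfect versus perfect matchings in bounded-degree vertex expanders

Let `G` be a finite graph of maximum degree at most `D`, and let `g ≥ 1` and `t` be such that
every vertex set `S` with `|S| ≤ g ^ (t - 1)` has at least `(4 g - 1) |S|` outside neighbours,
and any two disjoint vertex sets of size `g ^ t` are joined by an edge.  Then the number of
matchings leaving exactly two vertices uncovered is at most `n * (D + 1) ^ (2 t)` times the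
number of perfect matchings.
-/

namespace Vale.Agent.Results.P308.ExpanderRatio

open Vale.Agent.Lib.P308

theorem result {V : Type*} [Fintype V] (G : SimpleGraph V) [DecidableRel G.Adj]
    (D g t : ℕ) (hg : 1 ≤ g) (hdeg : ∀ x : V, G.degree x ≤ D)
    (hexp : ∀ S : Finset V, S.card * g ≤ g ^ t →
      4 * g * S.card ≤ ({y | y ∉ S ∧ ∃ x ∈ S, G.Adj x y} : Set V).ncard + S.card)
    (hjoin : ∀ S T : Finset V, S.card = g ^ t → T.card = g ^ t → Disjoint S T →
      ∃ x ∈ S, ∃ y ∈ T, G.Adj x y) :
    {M : G.Subgraph | M.IsMatching ∧ (M.vertsᶜ).ncard = 2}.ncard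
      ≤ Fintype.card V * (D + 1) ^ (2 * t) * {M : G.Subgraph | M.IsPerfectMatching}.ncard := by
  have h1 := ncard_subgraph_nearPerfect_le (G := G)
  have h2 := ncard_perfect_le_subgraph (G := G)
  have hdeg' : ∀ u : V, (G.neighborSet u).ncard ≤ D := by
    intro u
    rw [← Nat.card_coe_set_eq, Nat.card_eq_fintype_card, SimpleGraph.card_neighborSet_eq_degree]
    exact hdeg u
  have hb : ∀ S : Finset V,
      (bdry G S).card = ({y | y ∉ S ∧ ∃ x ∈ S, G.Adj x y} : Set V).ncard := by
    intro S
    rw [← Set.ncard_coe_finset]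
    congr 1
    ext y
    simp only [Finset.mem_coe, mem_bdry, Set.mem_setOf_eq]
  have h3 := nearPerfect_le_of_expansion G D g t hg hdeg'
    (fun S hS => by rw [hb]; exact hexp S hS) hjoin
  rw [Nat.card_eq_fintype_card] at h3
  calc {M : G.Subgraph | M.IsMatching ∧ (M.vertsᶜ).ncard = 2}.ncard
      ≤ (nearPerfect G).ncard := h1
    _ ≤ Fintype.card V * (D + 1) ^ (2 * t) * (perfect G).ncard := h3
    _ ≤ Fintype.card V * (D + 1) ^ (2 * t) * {M : G.Subgraph | M.IsPerfectMatching}.ncard :=
        Nat.mul_le_mul_left _ h2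

end Vale.Agent.Results.P308.ExpanderRatio
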