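import Vale.Agent.Lib.P308.Bridge

/-!
# P308: near-perfect versus perfect matchings in graphs of bounded independence number

If a finite graph `G` on `n` vertices has independence number at most `t` and has a perfect
matching, then the number of matchings that leave exactly two vertices uncovered is at most
`n ^ (3 * t)` times the number of perfect matchings.  (This is the Jerrum-Sinclair criterion
for the class of graphs of independence number at most `t`, for each fixed `t`.)
-/

namespace Vale.Agent.Results.P308.IndepNumRatio

open Vale.Agent.Lib.P308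

theorem result {V : Type*} [Fintype V] (G : SimpleGraph V) (t : ℕ)
    (hα : G.indepNum ≤ t) (hPM : ∃ M : G.Subgraph, M.IsPerfectMatching) :
    {M : G.Subgraph | M.IsMatching ∧ (M.vertsᶜ).ncard = 2}.ncard
      ≤ Fintype.card V ^ (3 * t) * {M : G.Subgraph | M.IsPerfectMatching}.ncard := by
  obtain ⟨M₀, hM₀⟩ := hPM
  have h1 := ncard_subgraph_nearPerfect_le (G := G)
  have h2 := ncard_perfect_le_subgraph (G := G)
  have h3 := nearPerfect_le_of_indep G t
    (fun S hS => (SimpleGraph.IsIndepSet.card_le_indepNum hS).trans hα)
    (perfect_nonempty_of_subgraph hM₀)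
  rw [Nat.card_eq_fintype_card] at h3
  calc {M : G.Subgraph | M.IsMatching ∧ (M.vertsᶜ).ncard = 2}.ncard
      ≤ (nearPerfect G).ncard := h1
    _ ≤ Fintype.card V ^ (3 * t) * (perfect G).ncard := h3
    _ ≤ Fintype.card V ^ (3 * t) * {M : G.Subgraph | M.IsPerfectMatching}.ncard :=
        Nat.mul_le_mul_left _ h2

end Vale.Agent.Results.P308.IndepNumRatio
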