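import Vale.Agent.Lib.P308.Bridge
import Vale.Agent.Lib.P308.Spectral

/-!
# P308: near-perfect versus perfect matchings in regular spectral expanders

Let `G` be a `d`-regular graph on `n` vertices (`d ≥ 1`) whose adjacency matrix `A` satisfies
`‖A f‖ ≤ lam * ‖f‖` for every real vector `f` with zero coordinate sum, and let `g ≥ 2` be an
integer with `8 * g * lam ≤ d`.  Then the number of matchings leaving exactly two vertices
uncovered is at most `n * (d + 1) ^ (2 * log_g n)` times the number of perfect matchings.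
For `g = 2` (that is `16 * lam ≤ d`) this is at most `n ^ (1 + 2 * log_2 (d + 1))`.
-/

namespace Vale.Agent.Results.P308.SpectralExpanderRatio

open Vale.Agent.Lib.P308

theorem result {V : Type*} [Fintype V] (G : SimpleGraph V) [DecidableRel G.Adj]
    (d g : ℕ) (lam : ℝ) (hd : 1 ≤ d) (hg : 2 ≤ g) (hreg : G.IsRegularOfDegree d)
    (hlam : 0 ≤ lam)
    (hspec : ∀ f : V → ℝ, ∑ x, f x = 0 →
      ∑ x, ((G.adjMatrix ℝ).mulVec f x) ^ 2 ≤ lam ^ 2 * ∑ x, f x ^ 2)
    (hgap : 8 * (g : ℝ) * lam ≤ d) :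
    {M : G.Subgraph | M.IsMatching ∧ (M.vertsᶜ).ncard = 2}.ncard
      ≤ Fintype.card V * (d + 1) ^ (2 * Nat.log g (Fintype.card V)) *
        {M : G.Subgraph | M.IsPerfectMatching}.ncard := by
  have h1 := ncard_subgraph_nearPerfect_le (G := G)
  have h2 := ncard_perfect_le_subgraph (G := G)
  have hspec' : ∀ f : V → ℝ, ∑ x, f x = 0 →
      ∑ x, (∑ y ∈ G.neighborFinset x, f y) ^ 2 ≤ lam ^ 2 * ∑ x, f x ^ 2 := by
    intro f hf
    have := hspec f hf
    simp only [SimpleGraph.adjMatrix_mulVec_apply] at this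
    exact this
  have h3 := nearPerfect_le_of_spectral G hd hg hreg hlam hspec' hgap
  rw [Nat.card_eq_fintype_card] at h3
  calc {M : G.Subgraph | M.IsMatching ∧ (M.vertsᶜ).ncard = 2}.ncard
      ≤ (nearPerfect G).ncard := h1
    _ ≤ Fintype.card V * (d + 1) ^ (2 * Nat.log g (Fintype.card V)) * (perfect G).ncard := h3
    _ ≤ Fintype.card V * (d + 1) ^ (2 * Nat.log g (Fintype.card V)) *
          {M : G.Subgraph | M.IsPerfectMatching}.ncard := Nat.mul_le_mul_left _ h2

end Vale.Agent.Results.P308.SpectralExpanderRatio
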